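import Mathlib
import Vale.Agent.Lib.P041.H19.Lines

/-!
# P054 (distinct distances in `ℝ^d`): point sets covered by few lines

Let `P` be a finite set of points of `ℝ^d` (any `d`) covered by `k` lines (affine subspaces with
one-dimensional direction), and let `Δ(P) = {|p - q| : p, q ∈ P, p ≠ q}`. Then

  `|P| ≤ 2 k |Δ(P)| + 1`,

and consequently, for `d ≥ 2` and `|P| ≥ 2`,  `|P|^(2/d) ≤ 4 k |Δ(P)|`.

So the conjectured bound `|Δ(P)| ≥ c |P|^(2/d)` holds, with `c = 1/(4k)`, on the class of point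
sets covered by `k` lines.

Proof: a sphere centred at a point `x` of `P` meets a line in at most two points, so each of the
`k` lines carries at most two points of `P` at each distance from `x`.
-/

namespace Vale.Agent.Results.P054.H19_CoveredByLines

theorem result (d : ℕ) (P : Finset (EuclideanSpace ℝ (Fin d))) (k : ℕ)
    (L : Fin k → AffineSubspace ℝ (EuclideanSpace ℝ (Fin d)))
    (hL : ∀ i, Module.finrank ℝ (L i).direction = 1)
    (hcov : ∀ p ∈ P, ∃ i, p ∈ L i) :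
    P.card ≤ 2 * k * Set.ncard {r : ℝ | ∃ p ∈ P, ∃ q ∈ P, p ≠ q ∧ dist p q = r} + 1 ∧
    (2 ≤ d → 2 ≤ P.card →
      (P.card : ℝ) ^ ((2 : ℝ) / d) ≤
        4 * k * Set.ncard {r : ℝ | ∃ p ∈ P, ∃ q ∈ P, p ≠ q ∧ dist p q = r}) := by
  classical
  have hfin : Set.Finite {r : ℝ | ∃ p ∈ P, ∃ q ∈ P, p ≠ q ∧ dist p q = r} := by
    apply Set.Finite.subset ((P ×ˢ P).image (fun pq => dist pq.1 pq.2)).finite_toSet
    rintro r ⟨p, hp, q, hq, -, rfl⟩
    simp only [Finset.coe_image, Set.mem_image, Finset.mem_coe, Finset.mem_product, Prod.exists]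
    exact ⟨p, q, ⟨hp, hq⟩, rfl⟩
  have hfirst : P.card ≤
      2 * k * Set.ncard {r : ℝ | ∃ p ∈ P, ∃ q ∈ P, p ≠ q ∧ dist p q = r} + 1 := by
    rcases P.eq_empty_or_nonempty with h0 | ⟨x, hx⟩
    · simp [h0]
    · have h1 := Vale.Agent.Lib.P041.H19.covered_by_lines P k L hL hcov x
      have hmono : Set.ncard {r : ℝ | ∃ y ∈ P, y ≠ x ∧ dist x y = r} ≤
          Set.ncard {r : ℝ | ∃ p ∈ P, ∃ q ∈ P, p ≠ q ∧ dist p q = r} := by
        apply Set.ncard_le_ncard _ hfin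
        rintro r ⟨y, hy, hyx, rfl⟩
        exact ⟨x, hx, y, hy, fun h => hyx h.symm, rfl⟩
      calc P.card ≤ 2 * k * Set.ncard {r : ℝ | ∃ y ∈ P, y ≠ x ∧ dist x y = r} + 1 := h1
        _ ≤ 2 * k * Set.ncard {r : ℝ | ∃ p ∈ P, ∃ q ∈ P, p ≠ q ∧ dist p q = r} + 1 := by
          gcongr
  refine ⟨hfirst, fun hd hn => ?_⟩
  have hn1 : (1 : ℝ) ≤ (P.card : ℝ) := by exact_mod_cast (by omega : 1 ≤ P.card)
  have hexp : (2 : ℝ) / d ≤ 1 := by
    have hd' : (2 : ℝ) ≤ (d : ℝ) := by exact_mod_cast hd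
    rw [div_le_one (by linarith)]
    exact hd'
  have hpow : (P.card : ℝ) ^ ((2 : ℝ) / d) ≤ (P.card : ℝ) := by
    calc (P.card : ℝ) ^ ((2 : ℝ) / d) ≤ (P.card : ℝ) ^ (1 : ℝ) :=
          Real.rpow_le_rpow_of_exponent_le hn1 hexp
      _ = (P.card : ℝ) := Real.rpow_one _
  have hnat : P.card ≤
      4 * k * Set.ncard {r : ℝ | ∃ p ∈ P, ∃ q ∈ P, p ≠ q ∧ dist p q = r} := by
    have := hfirst
    have h2 : 2 * (P.card - 1) ≤
        2 * (2 * k * Set.ncard {r : ℝ | ∃ p ∈ P, ∃ q ∈ P, p ≠ q ∧ dist p q = r}) := by omega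
    have h3 : P.card ≤ 2 * (P.card - 1) := by omega
    calc P.card ≤ 2 * (P.card - 1) := h3
      _ ≤ 2 * (2 * k * Set.ncard {r : ℝ | ∃ p ∈ P, ∃ q ∈ P, p ≠ q ∧ dist p q = r}) := h2
      _ = 4 * k * Set.ncard {r : ℝ | ∃ p ∈ P, ∃ q ∈ P, p ≠ q ∧ dist p q = r} := by ring
  calc (P.card : ℝ) ^ ((2 : ℝ) / d) ≤ (P.card : ℝ) := hpow
    _ ≤ ((4 * k * Set.ncard {r : ℝ | ∃ p ∈ P, ∃ q ∈ P, p ≠ q ∧ dist p q = r} : ℕ) : ℝ) := by
        exact_mod_cast hnat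
    _ = 4 * k * Set.ncard {r : ℝ | ∃ p ∈ P, ∃ q ∈ P, p ≠ q ∧ dist p q = r} := by
        push_cast; ring
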