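import Mathlib
import Vale.Agent.Lib.P041.H19.CirclesSpace

/-!
# P054 (distinct distances in `ℝ^d`): point sets covered by few lines and circles

Let `P` be a finite set of points of `ℝ^d` (any `d`) covered by `k` lines (affine subspaces with
one-dimensional direction) and `m` circles, a circle being the set of the points at distance
`ρ_j` from a centre `c_j` inside a two-dimensional affine subspace `A_j` through `c_j`. Let
`Δ(P) = {|p - q| : p, q ∈ P, p ≠ q}`. Then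

  `|P| ≤ (k + m) (2 |Δ(P)| + 1)`,

and consequently, for `d ≥ 2` and `|P| ≥ 2`,  `|P|^(2/d) ≤ 3 (k + m) |Δ(P)|`.

Proof: from a point `x` of a line or circle, at most two points of that line or circle are at
any given distance (two circles of a plane with different centres meet in at most two points);
one of the `k + m` curves carries at least `|P| / (k + m)` points of `P`.
-/

namespace Vale.Agent.Results.P054.H19_LinesAndCircles

theorem result (d : ℕ) (P : Finset (EuclideanSpace ℝ (Fin d))) (k m : ℕ)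
    (L : Fin k → AffineSubspace ℝ (EuclideanSpace ℝ (Fin d)))
    (hL : ∀ i, Module.finrank ℝ (L i).direction = 1)
    (A : Fin m → AffineSubspace ℝ (EuclideanSpace ℝ (Fin d)))
    (hA : ∀ j, Module.finrank ℝ (A j).direction = 2)
    (c : Fin m → EuclideanSpace ℝ (Fin d)) (hc : ∀ j, c j ∈ A j) (ρ : Fin m → ℝ)
    (hcov : ∀ p ∈ P, (∃ i, p ∈ L i) ∨ ∃ j, p ∈ A j ∧ dist p (c j) = ρ j) :
    P.card ≤ (k + m) *
        (2 * Set.ncard {r : ℝ | ∃ p ∈ P, ∃ q ∈ P, p ≠ q ∧ dist p q = r} + 1) ∧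
    (2 ≤ d → 2 ≤ P.card →
      (P.card : ℝ) ^ ((2 : ℝ) / d) ≤
        3 * (k + m) * Set.ncard {r : ℝ | ∃ p ∈ P, ∃ q ∈ P, p ≠ q ∧ dist p q = r}) := by
  classical
  have hfin : Set.Finite {r : ℝ | ∃ p ∈ P, ∃ q ∈ P, p ≠ q ∧ dist p q = r} := by
    apply Set.Finite.subset ((P ×ˢ P).image (fun pq => dist pq.1 pq.2)).finite_toSet
    rintro r ⟨p, hp, q, hq, -, rfl⟩
    simp only [Finset.coe_image, Set.mem_image, Finset.mem_coe, Finset.mem_product, Prod.exists]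
    exact ⟨p, q, ⟨hp, hq⟩, rfl⟩
  have hfirst := Vale.Agent.Lib.P041.H19.lines_circles_card_le P k m L hL A hA c hc ρ hcov
  refine ⟨hfirst, fun hd hn => ?_⟩
  have hpos : 1 ≤ Set.ncard {r : ℝ | ∃ p ∈ P, ∃ q ∈ P, p ≠ q ∧ dist p q = r} := by
    obtain ⟨p, q, hp, hq, hpq⟩ := Finset.one_lt_card_iff.mp (by omega : 1 < P.card)
    have hmem : dist p q ∈ {r : ℝ | ∃ p ∈ P, ∃ q ∈ P, p ≠ q ∧ dist p q = r} :=
      ⟨p, hp, q, hq, hpq, rfl⟩
    exact (Set.ncard_pos hfin).mpr ⟨_, hmem⟩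
  have hn1 : (1 : ℝ) ≤ (P.card : ℝ) := by exact_mod_cast (by omega : 1 ≤ P.card)
  have hexp : (2 : ℝ) / d ≤ 1 := by
    have hd' : (2 : ℝ) ≤ (d : ℝ) := by exact_mod_cast hd
    rw [div_le_one (by linarith)]
    exact hd'
  have hpow : (P.card : ℝ) ^ ((2 : ℝ) / d) ≤ (P.card : ℝ) := by
    calc (P.card : ℝ) ^ ((2 : ℝ) / d) ≤ (P.card : ℝ) ^ (1 : ℝ) :=
          Real.rpow_le_rpow_of_exponent_le hn1 hexp
      _ = (P.card : ℝ) := Real.rpow_one _
  have hnat : P.card ≤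
      3 * (k + m) * Set.ncard {r : ℝ | ∃ p ∈ P, ∃ q ∈ P, p ≠ q ∧ dist p q = r} := by
    calc P.card ≤ (k + m) *
          (2 * Set.ncard {r : ℝ | ∃ p ∈ P, ∃ q ∈ P, p ≠ q ∧ dist p q = r} + 1) := hfirst
      _ ≤ (k + m) * (3 * Set.ncard {r : ℝ | ∃ p ∈ P, ∃ q ∈ P, p ≠ q ∧ dist p q = r}) :=
          Nat.mul_le_mul_left _ (by omega)
      _ = 3 * (k + m) * Set.ncard {r : ℝ | ∃ p ∈ P, ∃ q ∈ P, p ≠ q ∧ dist p q = r} := by ring
  calc (P.card : ℝ) ^ ((2 : ℝ) / d) ≤ (P.card : ℝ) := hpow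
    _ ≤ ((3 * (k + m) * Set.ncard {r : ℝ | ∃ p ∈ P, ∃ q ∈ P, p ≠ q ∧ dist p q = r} : ℕ) : ℝ) := by
        exact_mod_cast hnat
    _ = 3 * (k + m) * Set.ncard {r : ℝ | ∃ p ∈ P, ∃ q ∈ P, p ≠ q ∧ dist p q = r} := by
        push_cast; ring
end Vale.Agent.Results.P054.H19_LinesAndCircles
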